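import Vale.Agent.Lib.P201.FoxTransfer

namespace Vale.Agent.Results.P201.FreeKernel

/-- Let `K` be a field, `G` a group and `N` a normal subgroup of `G` which is a free group (of
any rank).  If the group algebra `K[G / N]` has no zero divisors, then the group algebra `K[G]`
has no zero divisors.

So the zero-divisor conjecture passes from a group `Q` to every extension of `Q` by a free normal
subgroup, over the same field, with no orderability or unique-product hypothesis on `Q`.

Proof (in the imported files): let `I` be the kernel of `K[G] → K[G / N]`.  By means of Fox
derivatives, `I` is free as a right `K[G]`-module on the elements `x - 1`, `x` a free generator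
of `N`, and `I ^ (k + 1)` consists of the sums of the `(x - 1) a` with `a ∈ I ^ k`; the powers of
`I` have zero intersection (free groups are residually finite `p`-groups, which settles
characteristic `p`; characteristic zero follows by transfer of the coefficients through the
integers and the rationals).  If `α β = 0` with `α ≠ 0`, then writing `α = ∑ (x - 1) αₓ` one gets
`αₓ β = 0` for all `x`, and some `αₓ` lies in a smaller power of `I`; by induction `α` may be
replaced by an element outside `I`.  The same reduction applied to the images under the
inversion anti-automorphism replaces `β` by an element outside `I`, and the images of the two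
factors in `K[G / N]` are then a pair of nonzero elements with product zero. -/
theorem result (K : Type*) [Field K] (G : Type*) [Group G] (N : Subgroup G) [N.Normal]
    [IsFreeGroup N]
    (hQ : ∀ a b : MonoidAlgebra K (G ⧸ N), a * b = 0 → a = 0 ∨ b = 0) :
    ∀ a b : MonoidAlgebra K G, a * b = 0 → a = 0 ∨ b = 0 :=
  fun a b h => Vale.Agent.Lib.P201.eq_zero_or_eq_zero_of_free_kernel_field N hQ a b h

end Vale.Agent.Results.P201.FreeKernel
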